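import Vale.Agent.P092.UN.St
import Mathlib.Analysis.InnerProductSpace.Adjoint
import Mathlib.Analysis.InnerProductSpace.l2Space

/-!
P092 (helper988, QA): machine check of the definitions in `UN/St.lean` against Mathlib's notions.
`IsAdj`, `IsSmul`, `u`, `InL` are the adjoint, the multiple, the left regular representation and the
membership in the double commutant `vN G`; `superAll_mathlib` restates the conclusion `UN.SuperAll` of
Q1 for *-isomorphisms from `vN Γ` onto a corner `p M_n(vN Λ) p` in Mathlib's terms. Not imported by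
any hand-in.
-/

open Vale.Agent.P092.UN

namespace Vale.Agent.P092.H988.ChkUN

open Classical in
theorem dl_apply {X : Type} (x y : X) : (dl x : Ell2 X) y = if y = x then 1 else 0 := by
  classical
  unfold dl
  by_cases h : y = x
  · subst h; simp [lp.single_apply]
  · simp [lp.single_apply, h]

/-- continuous linear maps which agree on all `dl x` agree -/
theorem ext_dl {X : Type} {S T : Op X} (h : ∀ x, S (dl x) = T (dl x)) : S = T := by
  classical
  ext1 ξ
  have hs := lp.hasSum_single (E := fun _ : X => ℂ) (p := 2) (by simp) ξ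
  have h1 := hs.mapL S
  have h2 := hs.mapL T
  have : (fun i => S (lp.single 2 i (ξ i))) = fun i => T (lp.single 2 i (ξ i)) := by
    funext i
    have e : (lp.single 2 i (ξ i) : Ell2 X) = (ξ i) • dl i := by
      ext y
      rw [lp.coeFn_smul, Pi.smul_apply, dl_apply]
      by_cases hy : y = i
      · subst hy; simp [lp.single_apply]
      · simp [lp.single_apply, hy]
    rw [e, map_smul, map_smul, h i]
  rw [this] at h1
  exact h1.unique h2

theorem inner_dl {X : Type} (x : X) (ξ : Ell2 X) : inner ℂ (dl x : Ell2 X) ξ = ξ x := by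
  classical
  rw [lp.inner_eq_tsum]
  rw [tsum_eq_single x]
  · rw [dl_apply]; simp
  · intro y hy; rw [dl_apply]; simp [hy]

theorem isAdj_iff {X : Type} (S T : Op X) : IsAdj S T ↔ T = ContinuousLinearMap.adjoint S := by
  constructor
  · intro h
    refine ext_dl fun x => ?_
    ext y
    have h1 : (T (dl x) : Ell2 X) y = star ((S (dl y) : Ell2 X) x) := h x y
    rw [h1, ← inner_dl y (ContinuousLinearMap.adjoint S (dl x)), ContinuousLinearMap.adjoint_inner_right,
      ← inner_dl x (S (dl y))]
    exact inner_conj_symm (𝕜 := ℂ) (S (dl y)) (dl x)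
  · rintro rfl x y
    change (ContinuousLinearMap.adjoint S (dl x) : Ell2 X) y = star ((S (dl y) : Ell2 X) x)
    rw [← inner_dl y (ContinuousLinearMap.adjoint S (dl x)), ContinuousLinearMap.adjoint_inner_right,
      ← inner_dl x (S (dl y))]
    exact (inner_conj_symm (𝕜 := ℂ) (S (dl y)) (dl x)).symm

theorem isSmul_iff {X : Type} (c : ℂ) (S T : Op X) : IsSmul c S T ↔ T = c • S := by
  constructor
  · intro h; ext ξ x; exact h ξ x
  · rintro rfl ξ x; rfl

theorem u_apply {G : Type} [Group G] (g : G) (ξ : Ell2 G) (h : G) : (u g ξ : Ell2 G) h = ξ (g⁻¹ * h) := by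
  have e : u g = Vale.Agent.P092.H160.lam g := by
    refine ext_dl fun x => ?_
    have h1 : ap (u g) (dl x) = dl (g * x) := (exists_u g).choose_spec x
    have h1' : u g (dl x) = dl (g * x) := h1
    rw [h1']
    ext y
    change (dl (g * x) : Ell2 G) y = (dl x : Ell2 G) (g⁻¹ * y)
    rw [dl_apply, dl_apply]
    by_cases hy : y = g * x
    · subst hy; simp
    · have : g⁻¹ * y ≠ x := fun e => hy (inv_mul_eq_iff_eq_mul.1 e)
      simp [hy, this]
  rw [e]; rfl

theorem inL_iff {G : Type} [Group G] (T : Op G) : InL T ↔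
    T ∈ Set.centralizer (Set.centralizer (Set.range (u : G → Op G))) := by
  constructor
  · intro h S hS
    exact (h S (fun g => (hS (u g) ⟨g, rfl⟩).symm)).symm
  · intro h S hS
    exact (h S (by rintro _ ⟨g, rfl⟩; exact (hS g).symm)).symm

theorem u_unitary {G : Type} [Group G] (g : G) :
    ContinuousLinearMap.adjoint (u g) = u g⁻¹ := by
  symm
  rw [← isAdj_iff]
  intro x y
  change (u g⁻¹ (dl x) : Ell2 G) y = star ((u g (dl y) : Ell2 G) x)
  rw [u_apply, u_apply, dl_apply, dl_apply]
  by_cases h : x = g * y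
  · subst h; simp
  · have h1 : ¬ (g⁻¹)⁻¹ * y = x := by rw [inv_inv]; exact fun e => h e.symm
    have h2 : ¬ g⁻¹ * x = y := fun e => h (inv_mul_eq_iff_eq_mul.1 e)
    rw [if_neg h2, if_neg h1]; simp

/-- the group von Neumann algebra in Mathlib's terms -/
noncomputable def vN (G : Type) [Group G] : StarSubalgebra ℂ (Op G) :=
  StarSubalgebra.centralizer ℂ (StarSubalgebra.centralizer ℂ (Set.range (u : G → Op G)) : Set (Op G))

theorem star_range {G : Type} [Group G] : star (Set.range (u : G → Op G)) = Set.range (u : G → Op G) := by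
  ext T
  constructor
  · rintro ⟨g, hg⟩
    refine ⟨g⁻¹, ?_⟩
    rw [← u_unitary, hg]
    exact star_star T
  · rintro ⟨g, rfl⟩
    exact ⟨g⁻¹, (u_unitary g).symm⟩

theorem mem_vN {G : Type} [Group G] (T : Op G) : T ∈ vN G ↔ InL T := by
  rw [inL_iff]
  unfold vN
  rw [StarSubalgebra.mem_centralizer_iff]
  constructor
  · intro h S hS
    refine (h S ?_).1
    change S ∈ StarSubalgebra.centralizer ℂ (Set.range (u : G → Op G))
    rw [StarSubalgebra.mem_centralizer_iff]
    rintro _ ⟨g, rfl⟩
    refine ⟨hS (u g) ⟨g, rfl⟩, ?_⟩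
    have : star (u g : Op G) = u g⁻¹ := u_unitary g
    rw [this]
    exact hS (u g⁻¹) ⟨g⁻¹, rfl⟩
  · intro h S hS
    have hS' : S ∈ StarSubalgebra.centralizer ℂ (Set.range (u : G → Op G)) := hS
    have hS2 : star S ∈ StarSubalgebra.centralizer ℂ (Set.range (u : G → Op G)) := star_mem hS'
    rw [StarSubalgebra.mem_centralizer_iff] at hS' hS2
    refine ⟨h S ?_, h (star S) ?_⟩
    · rintro _ ⟨g, rfl⟩; exact (hS' (u g) ⟨g, rfl⟩).1
    · rintro _ ⟨g, rfl⟩; exact (hS2 (u g) ⟨g, rfl⟩).1

theorem u_mem {G : Type} [Group G] (g : G) : u g ∈ vN G := by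
  rw [mem_vN]; intro S hS; exact (hS g).symm

open Classical in
/-- Q1's conclusion `SuperAll` in Mathlib's terms -/
theorem superAll_mathlib (Γ : Type) [Group Γ] (h : SuperAll Γ) (Λ : Type) [Group Λ] [Countable Λ]
    (hΛ : ICC Λ) (n : ℕ) (p : Matrix (Fin n) (Fin n) (vN Λ)) (hp : p * p = p) (hp' : star p = p)
    (e : vN Γ → Matrix (Fin n) (Fin n) (vN Λ)) (inj : Function.Injective e)
    (ran : Set.range e = {x | p * x = x ∧ x * p = x})
    (eadd : ∀ x y, e (x + y) = e x + e y) (emul : ∀ x y, e (x * y) = e x * e y)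
    (esmul : ∀ (c : ℂ) x, e (c • x) = c • e x) (estar : ∀ x, e (star x) = star (e x)) :
    (∑ i, inner ℂ (dl 1 : Ell2 Λ) ((p i i : Op Λ) (dl 1))) = 1 ∧
    ∃ (δ : Γ ≃* Λ) (χ : Γ →* Circle) (w : Fin n → vN Λ), ∑ i, star (w i) * w i = 1 ∧
      (∀ i j, w i * star (w j) = p i j) ∧
      ∀ g i j, e ⟨u g, u_mem g⟩ i j = (χ g : ℂ) • (w i * ⟨u (δ g), u_mem _⟩ * star (w j)) := by
  -- the operator matrices
  let m : Matrix (Fin n) (Fin n) (vN Λ) → MOp n Λ := fun A i j => (A i j : Op Λ)
  have m_inj : ∀ A B, m A = m B → A = B := by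
    intro A B hAB; exact Matrix.ext fun i j => Subtype.ext (congrFun (congrFun hAB i) j)
  have m_mul : ∀ A B, m (A * B) = mmul (m A) (m B) := by
    intro A B; funext i j
    change ((A * B) i j : Op Λ) = ∑ k, mul (A i k : Op Λ) (B k j)
    rw [Matrix.mul_apply]
    simp only [AddSubmonoidClass.coe_finsetSum, MulMemClass.coe_mul]
    rfl
  have m_mem : ∀ A, InM (m A) := fun A i j => (mem_vN _).1 (A i j).2
  have hproj : IsProj (m p) := by
    refine ⟨m_mem p, ?_, ?_⟩
    · intro i j
      rw [isAdj_iff]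
      have h1 := congrFun (congrFun hp' j) i
      rw [Matrix.star_apply] at h1
      change (p j i : Op Λ) = _
      rw [← h1]; rfl
    · rw [← m_mul, hp]
  -- lifts of operator matrices in the corner
  have lift : ∀ A : MOp n Λ, InM A → ∃ B, m B = A := fun A hA =>
    ⟨fun i j => ⟨A i j, (mem_vN _).2 (hA i j)⟩, rfl⟩
  have hC : ∀ B, InC (m p) (m B) ↔ p * B = B ∧ B * p = B := by
    intro B
    constructor
    · rintro ⟨_, h1, h2⟩
      exact ⟨m_inj _ _ (by rw [m_mul]; exact h1), m_inj _ _ (by rw [m_mul]; exact h2)⟩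
    · rintro ⟨h1, h2⟩
      exact ⟨m_mem B, by rw [← m_mul, h1], by rw [← m_mul, h2]⟩
  have pre : ∀ A : MOp n Λ, InC (m p) A → ∃ x, m (e x) = A := by
    intro A hA
    obtain ⟨B, rfl⟩ := lift A hA.1
    have : B ∈ Set.range e := by rw [ran]; exact (hC B).1 hA
    obtain ⟨x, rfl⟩ := this
    exact ⟨x, rfl⟩
  let θ : CornerIso Γ Λ n (m p) :=
    { toFun := fun T => if hT : T ∈ vN Γ then m (e ⟨T, hT⟩) else 0
      invFun := fun A => if hA : ∃ x, m (e x) = A then (hA.choose : Op Γ) else 0
      map_mem := fun T hT => by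
        rw [dif_pos ((mem_vN T).2 hT), hC]
        have : e ⟨T, (mem_vN T).2 hT⟩ ∈ {x | p * x = x ∧ x * p = x} := by
          rw [← ran]; exact ⟨_, rfl⟩
        exact this
      inv_mem := fun A hA => by
        rw [dif_pos (pre A hA)]
        exact (mem_vN _).1 (pre A hA).choose.2
      left_inv := fun T hT => by
        have hT' := (mem_vN T).2 hT
        have hx : ∃ x, m (e x) = m (e ⟨T, hT'⟩) := ⟨_, rfl⟩
        rw [dif_pos hT', dif_pos hx]
        have := inj (m_inj _ _ hx.choose_spec)
        exact congrArg Subtype.val this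
      right_inv := fun A hA => by
        have hx := pre A hA
        rw [dif_pos hx]
        rw [dif_pos hx.choose.2]
        exact hx.choose_spec
      map_add := fun S T hS hT => by
        have hS' := (mem_vN S).2 hS
        have hT' := (mem_vN T).2 hT
        have hST : add S T ∈ vN Γ := add_mem hS' hT'
        rw [dif_pos hST, dif_pos hS', dif_pos hT']
        have : (⟨add S T, hST⟩ : vN Γ) = ⟨S, hS'⟩ + ⟨T, hT'⟩ := rfl
        rw [this, eadd]; rfl
      map_smul := fun c S T hS hT hc => by
        rw [isSmul_iff] at hc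
        subst hc
        have hS' := (mem_vN S).2 hS
        have hT' := (mem_vN _).2 hT
        rw [dif_pos hS', dif_pos hT']
        have : (⟨c • S, hT'⟩ : vN Γ) = c • ⟨S, hS'⟩ := rfl
        rw [this, esmul]
        intro i j; rw [isSmul_iff]; rfl
      map_mul := fun S T hS hT => by
        have hS' := (mem_vN S).2 hS
        have hT' := (mem_vN T).2 hT
        have hST : mul S T ∈ vN Γ := mul_mem hS' hT'
        rw [dif_pos hST, dif_pos hS', dif_pos hT']
        have : (⟨mul S T, hST⟩ : vN Γ) = ⟨S, hS'⟩ * ⟨T, hT'⟩ := rfl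
        rw [this, emul, m_mul]
      map_adj := fun S T hS hT ha => by
        rw [isAdj_iff] at ha
        subst ha
        have hS' := (mem_vN S).2 hS
        have hT' := (mem_vN _).2 hT
        rw [dif_pos hS', dif_pos hT']
        have : (⟨ContinuousLinearMap.adjoint S, hT'⟩ : vN Γ) = star ⟨S, hS'⟩ := rfl
        rw [this, estar]
        intro i j; rw [isAdj_iff]; rfl }
  obtain ⟨htr, δ, χ, w, w', hw, hw', h1, h2, h3⟩ := h Λ hΛ n (m p) hproj θ
  refine ⟨?_, δ, χ, fun i => ⟨w i, (mem_vN _).2 (hw i)⟩, ?_, ?_, ?_⟩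
  · rw [← htr]
    refine Finset.sum_congr rfl fun i _ => ?_
    rw [inner_dl]; rfl
  · apply Subtype.ext
    simp only [AddSubmonoidClass.coe_finsetSum, MulMemClass.coe_mul]
    have hu : (u 1 : Op Λ) = 1 := by
      refine ext_dl fun x => ?_
      ext y
      rw [u_apply]; simp
    change ∑ i, star (w i) * w i = 1
    rw [← hu, ← h1]
    refine Finset.sum_congr rfl fun i _ => ?_
    have := (isAdj_iff _ _).1 (hw' i)
    rw [this]; rfl
  · intro i j
    apply Subtype.ext
    have := (isAdj_iff _ _).1 (hw' j)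
    have h2' := h2 i j
    rw [this] at h2'
    exact h2'
  · intro g i j
    apply Subtype.ext
    have h3' := (isSmul_iff _ _ _).1 (h3 g i j)
    have := (isAdj_iff _ _).1 (hw' j)
    rw [this] at h3'
    have ht : θ.toFun (u g) = m (e ⟨u g, u_mem g⟩) := dif_pos (u_mem g)
    rw [ht] at h3'
    exact h3'

end Vale.Agent.P092.H988.ChkUN
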